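import Vale.Agent.P235.H606.ADefs

/-! (SPLK): a complete minor with `(m + 1) * n` vertices gives `m + 1` disjoint ones with `n`. -/

set_option autoImplicit false

namespace Vale.Agent.P235.H236

open SimpleGraph Vale.Agent.P235.H134 Vale.Agent.P235.H606

/-- a union of pairwise adjacent connected sets is connected -/
theorem connected_iUnion {V ι : Type} [Nonempty ι] {G : SimpleGraph V} {ν : ι → Set V}
    (h1 : ∀ k, (G.induce (ν k)).Connected)
    (h2 : ∀ k l, k ≠ l → ∃ x ∈ ν k, ∃ y ∈ ν l, G.Adj x y) :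
    (G.induce (⋃ k, ν k)).Connected := by
  have hsub : ∀ k, ν k ⊆ ⋃ k, ν k := fun k => Set.subset_iUnion ν k
  have hr : ∀ k (x y : V) (hx : x ∈ ν k) (hy : y ∈ ν k),
      (G.induce (⋃ k, ν k)).Reachable ⟨x, hsub k hx⟩ ⟨y, hsub k hy⟩ := fun k x y hx hy =>
    ((h1 k).preconnected ⟨x, hx⟩ ⟨y, hy⟩).map (SimpleGraph.induceHomOfLE G (hsub k)).toHom
  obtain ⟨k0⟩ := ‹Nonempty ι›
  obtain ⟨⟨z, hz⟩⟩ := (h1 k0).nonempty
  have : Nonempty (⋃ k, ν k : Set V) := ⟨⟨z, hsub k0 hz⟩⟩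
  refine ⟨fun ⟨x, hx⟩ ⟨y, hy⟩ => ?_⟩
  obtain ⟨k, hk⟩ := Set.mem_iUnion.1 hx
  obtain ⟨l, hl⟩ := Set.mem_iUnion.1 hy
  by_cases hkl : k = l
  · subst hkl
    exact hr k x y hk hl
  · obtain ⟨a, ha, b, hb, hab⟩ := h2 k l hkl
    have hadj : (G.induce (⋃ k, ν k)).Adj ⟨a, hsub k ha⟩ ⟨b, hsub l hb⟩ := hab
    exact ((hr k x a hk ha).trans hadj.reachable).trans (hr l b y hb hl)

/-- a minor of `G` with branch sets in `A` is a minor of `G[A]` -/
theorem isMinor_induce {V W : Type} {G : SimpleGraph V} {H : SimpleGraph W} {A : Set V}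
    {ν : W → Set V} (hA : ∀ k, ν k ⊆ A) (h1 : ∀ k, (G.induce (ν k)).Connected)
    (h2 : ∀ k l, k ≠ l → Disjoint (ν k) (ν l))
    (h3 : ∀ k l, H.Adj k l → ∃ x ∈ ν k, ∃ y ∈ ν l, G.Adj x y) : IsMinor H (G.induce A) := by
  refine ⟨fun k => {x : A | x.1 ∈ ν k}, fun k => ?_, fun k l hkl => ?_, fun k l hkl => ?_⟩
  · let e : G.induce (ν k) ≃g (G.induce A).induce {x : A | x.1 ∈ ν k} :=
      { toFun := fun x => ⟨⟨x.1, hA k x.2⟩, x.2⟩
        invFun := fun x => ⟨x.1.1, x.2⟩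
        left_inv := fun x => rfl
        right_inv := fun x => rfl
        map_rel_iff' := Iff.rfl }
    exact e.connected_iff.1 (h1 k)
  · rw [Set.disjoint_left]
    intro x hx hy
    exact Set.disjoint_left.1 (h2 k l hkl) hx hy
  · obtain ⟨x, hx, y, hy, hxy⟩ := h3 k l hkl
    exact ⟨⟨x, hA k hx⟩, hx, ⟨y, hA l hy⟩, hy, hxy⟩

theorem splK : SplKStmt := by
  intro V G m n hn ⟨μ, h1, h2, h3⟩
  have : Nonempty (Fin n) := ⟨⟨0, hn⟩⟩
  have hne : ∀ (i : Fin (m + 1)) (k l : Fin n), k ≠ l →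
      (finProdFinEquiv (i, k) : Fin ((m + 1) * n)) ≠ finProdFinEquiv (i, l) := fun i k l hkl h =>
    hkl (by simpa using finProdFinEquiv.injective h)
  refine ⟨fun i => ⋃ k : Fin n, μ (finProdFinEquiv (i, k)), fun i => ⟨?_, ?_⟩, fun i j hij => ?_⟩
  · exact connected_iUnion (fun k => h1 _) fun k l hkl =>
      h3 _ _ ((top_adj _ _).2 (hne i k l hkl))
  · exact isMinor_induce (fun k => Set.subset_iUnion (fun k => μ (finProdFinEquiv (i, k))) k)
      (fun k => h1 _) (fun k l hkl => h2 _ _ (hne i k l hkl))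
      fun k l hkl => h3 _ _ ((top_adj _ _).2 (hne i k l ((top_adj _ _).1 hkl)))
  · rw [Set.disjoint_iUnion_left]
    intro k
    rw [Set.disjoint_iUnion_right]
    intro l
    refine h2 _ _ fun h => hij ?_
    have := finProdFinEquiv.injective h
    simpa using congrArg Prod.fst this

end Vale.Agent.P235.H236
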