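import Vale.Agent.P235.H12.BDefs
import Vale.Agent.P235.H56.MinTrans

/-! (HUNGF): rooted excluded minors give excluded minors, componentwise. -/

set_option autoImplicit false

namespace Vale.Agent.P235.H236

open SimpleGraph hiding Free
open Vale.Agent.P235 Vale.Agent.P235.H134 Vale.Agent.P235.H606 Vale.Agent.P235.H56
open Vale.Agent.P235.H141 Vale.Agent.P235.H12
open Vale.Agent.P235.H341W (capG)

theorem rfree_of_hung (hJ : JoinStmt) (h33 : RK33Stmt) (hcap : RCapStmt) {X : Type}
    {T : SimpleGraph X} {a : X} (h : Hung X T a) : RFree T a := by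
  induction h with
  | k33 a => exact h33 a
  | cap r hr => exact hcap r hr
  | join W H a _ ih => exact hJ _ W H a ih

/-- a rooted excluded minor is an excluded minor, and so are its minors -/
theorem free_of_rfree {W X : Type} {H : SimpleGraph W} {T : SimpleGraph X} {a : X}
    (h : RFree T a) (hm : IsMinor H T) : ∃ Q : ℝ, Free H Q := by
  obtain ⟨Q, hQ⟩ := h
  refine ⟨Q, ?_⟩
  intro V _ G hG hH
  by_contra hc
  obtain ⟨v⟩ := hG.nonempty
  obtain ⟨μ, h1, h2, h3, -⟩ := hQ V G hG hc v
  exact hH (minor_trans hm ⟨μ, h1, h2, h3⟩)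

theorem free_mono {W : Type} {H : SimpleGraph W} {C C' : ℝ} (h : Free H C) (hC : C ≤ C') :
    Free H C' := by
  intro V _ G hG hH
  exact (h V G hG hH).mono hC

theorem hung (hJ : JoinStmt) (h33 : RK33Stmt) (hcap : RCapStmt) (hcomp : CompStmt) :
    HungStmt := by
  intro W _ H hH
  have key : ∀ c : H.ConnectedComponent, ∃ Q : ℝ, Free (H.induce c.supp) Q := by
    intro c
    obtain ⟨X, T, a, hT, hm⟩ := hH c
    exact free_of_rfree (rfree_of_hung hJ h33 hcap hT) hm
  choose Q hQ using key
  have : Finite H.ConnectedComponent := Quot.finite _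
  obtain ⟨B, hB⟩ := (Set.finite_range Q).bddAbove
  obtain ⟨K, -, hK⟩ := hcomp
  exact ⟨_, hK W H (max 1 B) (le_max_left _ _) fun c =>
    free_mono (hQ c) ((hB ⟨c, rfl⟩).trans (le_max_right _ _))⟩

end Vale.Agent.P235.H236
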