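import Vale.Agent.P235.H830.QDefs

/-! (SPLIT): `F 0` touches only `F e`, and `F e` splits into two sets. -/

set_option autoImplicit false

namespace Vale.Agent.P235.H236.Spl

open SimpleGraph Vale.Agent.P235.H134 Vale.Agent.P235.H56 Vale.Agent.P235.H141
open Vale.Agent.P235.H830
open Vale.Agent.P235.H578 (conn_union)

section sets
variable {V : Type} {G : SimpleGraph V}

theorem touch_symm {S T : Set V} (h : Touch G S T) : Touch G T S := by
  obtain ⟨x, hx, y, hy, hxy⟩ := h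
  exact ⟨y, hy, x, hx, hxy.symm⟩

theorem touch_mono {S S' T T' : Set V} (h : Touch G S T) (hS : S ⊆ S') (hT : T ⊆ T') :
    Touch G S' T' := by
  obtain ⟨x, hx, y, hy, hxy⟩ := h
  exact ⟨x, hS hx, y, hT hy, hxy⟩

theorem touch_union {S T T' : Set V} (h : Touch G S (T ∪ T')) : Touch G S T ∨ Touch G S T' := by
  obtain ⟨x, hx, y, hy | hy, hxy⟩ := h
  · exact Or.inl ⟨x, hx, y, hy, hxy⟩
  · exact Or.inr ⟨x, hx, y, hy, hxy⟩

/-- six disjoint connected sets, three against three -/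
theorem six {a1 a2 a3 b1 b2 b3 : Set V} (ca1 : (G.induce a1).Connected)
    (ca2 : (G.induce a2).Connected) (ca3 : (G.induce a3).Connected)
    (cb1 : (G.induce b1).Connected) (cb2 : (G.induce b2).Connected)
    (cb3 : (G.induce b3).Connected) (hd : [a1, a2, a3, b1, b2, b3].Pairwise Disjoint)
    (t11 : Touch G a1 b1) (t12 : Touch G a1 b2) (t13 : Touch G a1 b3)
    (t21 : Touch G a2 b1) (t22 : Touch G a2 b2) (t23 : Touch G a2 b3)
    (t31 : Touch G a3 b1) (t32 : Touch G a3 b2) (t33 : Touch G a3 b3) :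
    Mod G (Sum.elim ![a1, a2, a3] ![b1, b2, b3]) := by
  simp only [List.pairwise_cons, List.mem_cons, forall_eq_or_imp, List.not_mem_nil,
    IsEmpty.forall_iff, implies_true, and_true, forall_eq, List.Pairwise.nil] at hd
  obtain ⟨⟨d12, d13, d14, d15, d16⟩, ⟨d23, d24, d25, d26⟩, ⟨d34, d35, d36⟩, ⟨d45, d46⟩, d56⟩ := hd
  have touch : ∀ i j : Fin 3, Touch G (![a1, a2, a3] i) (![b1, b2, b3] j) := by
    intro i j
    fin_cases i <;> fin_cases j <;> assumption
  have hab : ∀ i j : Fin 3, Disjoint (![a1, a2, a3] i) (![b1, b2, b3] j) := by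
    intro i j
    fin_cases i <;> fin_cases j <;> assumption
  refine ⟨?_, ?_, ?_⟩
  · rintro (i | i)
    · fin_cases i <;> assumption
    · fin_cases i <;> assumption
  · rintro (i | i) (j | j) hij
    · fin_cases i <;> fin_cases j <;> first | exact absurd rfl hij | assumption |
        (apply Disjoint.symm; assumption)
    · exact hab i j
    · exact (hab j i).symm
    · fin_cases i <;> fin_cases j <;> first | exact absurd rfl hij | assumption |
        (apply Disjoint.symm; assumption)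
  · rintro (i | i) (j | j) hij
    · simp [K33] at hij
    · exact touch i j
    · exact touch_symm (touch j i)
    · simp [K33] at hij

/-- the case `e = 4`, `U` touches `E₁` and `V` touches `E₂` -/
theorem four_a {F : Fin 7 → Set V} {E₁ E₂ : Set V} (S : Seven G F) (hE : E₁ ∪ E₂ = F 4)
    (hd : Disjoint E₁ E₂) (c1 : (G.induce E₁).Connected) (c2 : (G.induce E₂).Connected)
    (w1 : Touch G (F 0) E₁) (w2 : Touch G (F 0) E₂) (hU : Touch G (F 2) E₁)
    (hV : Touch G (F 3) E₂) : NewM G F := by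
  have e1 : E₁ ⊆ F 4 := hE ▸ Set.subset_union_left
  have e2 : E₂ ⊆ F 4 := hE ▸ Set.subset_union_right
  have d := S.disj
  have d1 : ∀ j, j ≠ 4 → Disjoint (F j) E₁ := fun j hj => (d j 4 hj).mono_right e1
  have d2 : ∀ j, j ≠ 4 → Disjoint (F j) E₂ := fun j hj => (d j 4 hj).mono_right e2
  have d1' : ∀ j, j ≠ 4 → Disjoint E₁ (F j) := fun j hj => (d1 j hj).symm
  have d2' : ∀ j, j ≠ 4 → Disjoint E₂ (F j) := fun j hj => (d2 j hj).symm
  refine ⟨_, Sum.inl 0, six (a1 := F 0) (a2 := F 5) (a3 := F 6) (b1 := F 1) (b2 := F 2 ∪ E₁)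
    (b3 := F 3 ∪ E₂) (S.conn 0) (S.conn 5) (S.conn 6) (S.conn 1)
    (conn_union (S.conn 2) c1 hU) (conn_union (S.conn 3) c2 hV) ?_ S.wx
    (touch_mono w1 (le_refl _) Set.subset_union_right)
    (touch_mono w2 (le_refl _) Set.subset_union_right)
    (touch_symm S.xb)
    (touch_mono (touch_symm (S.uv 2 5 (by simp) (by simp))) (le_refl _) Set.subset_union_left)
    (touch_mono (touch_symm (S.uv 3 5 (by simp) (by simp))) (le_refl _) Set.subset_union_left)
    (touch_symm S.xc)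
    (touch_mono (touch_symm (S.uv 2 6 (by simp) (by simp))) (le_refl _) Set.subset_union_left)
    (touch_mono (touch_symm (S.uv 3 6 (by simp) (by simp))) (le_refl _) Set.subset_union_left),
    rfl, Sum.inl 1, Sum.inl 2, by simp, by simp, by simp, ⟨5, by decide, le_refl _⟩,
    ⟨6, by decide, le_refl _⟩⟩
  simp [d, d1, d2, d1', d2', hd]

/-- the case `e = 4`, `U` and `V` touch `E₂`, `E₁` touches `F p` -/
theorem four_b {F : Fin 7 → Set V} {E₁ E₂ : Set V} (S : Seven G F) (hE : E₁ ∪ E₂ = F 4)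
    (hd : Disjoint E₁ E₂) (c1 : (G.induce E₁).Connected) (c2 : (G.induce E₂).Connected)
    (w1 : Touch G (F 0) E₁) (w2 : Touch G (F 0) E₂) (hU : Touch G (F 2) E₂)
    (hV : Touch G (F 3) E₂) (p q : Fin 7) (hpq : (p = 5 ∧ q = 6) ∨ (p = 6 ∧ q = 5))
    (hp : Touch G E₁ (F p)) : NewM G F := by
  have e1 : E₁ ⊆ F 4 := hE ▸ Set.subset_union_left
  have e2 : E₂ ⊆ F 4 := hE ▸ Set.subset_union_right
  have d := S.disj
  have d1 : ∀ j, j ≠ 4 → Disjoint (F j) E₁ := fun j hj => (d j 4 hj).mono_right e1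
  have d2 : ∀ j, j ≠ 4 → Disjoint (F j) E₂ := fun j hj => (d j 4 hj).mono_right e2
  have d1' : ∀ j, j ≠ 4 → Disjoint E₁ (F j) := fun j hj => (d1 j hj).symm
  have d2' : ∀ j, j ≠ 4 → Disjoint E₂ (F j) := fun j hj => (d2 j hj).symm
  have hxq : Touch G (F 1) (F q) := by
    rcases hpq with ⟨-, rfl⟩ | ⟨-, rfl⟩
    · exact S.xc
    · exact S.xb
  have hup : ∀ i : Fin 7, (i = 2 ∨ i = 3) → Touch G (F i) (F p) ∧ Touch G (F i) (F q) := by
    intro i hi
    rcases hpq with ⟨rfl, rfl⟩ | ⟨rfl, rfl⟩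
    · exact ⟨S.uv i _ hi (by simp), S.uv i _ hi (by simp)⟩
    · exact ⟨S.uv i _ hi (by simp), S.uv i _ hi (by simp)⟩
  refine ⟨_, Sum.inl 0, six (a1 := F 0) (a2 := F 2) (a3 := F 3) (b1 := F 1 ∪ F q) (b2 := E₂)
    (b3 := F p ∪ E₁) (S.conn 0) (S.conn 2) (S.conn 3) (conn_union (S.conn 1) (S.conn q) hxq) c2
    (conn_union (S.conn p) c1 (touch_symm hp)) ?_
    (touch_mono S.wx (le_refl _) Set.subset_union_left) w2
    (touch_mono w1 (le_refl _) Set.subset_union_right)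
    (touch_mono (hup 2 (by simp)).2 (le_refl _) Set.subset_union_right) hU
    (touch_mono (hup 2 (by simp)).1 (le_refl _) Set.subset_union_left)
    (touch_mono (hup 3 (by simp)).2 (le_refl _) Set.subset_union_right) hV
    (touch_mono (hup 3 (by simp)).1 (le_refl _) Set.subset_union_left),
    rfl, Sum.inr 0, Sum.inr 2, by simp, by simp, by simp, ⟨q, ?_, Set.subset_union_right⟩,
    ⟨p, ?_, Set.subset_union_left⟩⟩
  · rcases hpq with ⟨rfl, rfl⟩ | ⟨rfl, rfl⟩ <;> simp [d, d1, d2, d1', d2', hd, hd.symm]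
  · rcases hpq with ⟨rfl, rfl⟩ | ⟨rfl, rfl⟩ <;> decide
  · rcases hpq with ⟨rfl, rfl⟩ | ⟨rfl, rfl⟩ <;> decide

theorem four {F : Fin 7 → Set V} {E₁ E₂ : Set V} (S : Seven G F) (hE : E₁ ∪ E₂ = F 4)
    (hd : Disjoint E₁ E₂) (c1 : (G.induce E₁).Connected) (c2 : (G.induce E₂).Connected)
    (w1 : Touch G (F 0) E₁) (w2 : Touch G (F 0) E₂)
    (h1 : ∃ j : Fin 7, 2 ≤ j ∧ j ≠ 4 ∧ Touch G E₁ (F j))
    (h2 : ∃ j : Fin 7, 2 ≤ j ∧ j ≠ 4 ∧ Touch G E₂ (F j)) : NewM G F := by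
  have hE' : E₂ ∪ E₁ = F 4 := by rw [Set.union_comm]; exact hE
  have hU : Touch G (F 2) E₁ ∨ Touch G (F 2) E₂ :=
    touch_union (hE.symm ▸ S.uv 2 4 (by simp) (by simp))
  have hV : Touch G (F 3) E₁ ∨ Touch G (F 3) E₂ :=
    touch_union (hE.symm ▸ S.uv 3 4 (by simp) (by simp))
  by_cases k1 : Touch G (F 2) E₁ ∧ Touch G (F 3) E₂
  · exact four_a S hE hd c1 c2 w1 w2 k1.1 k1.2
  by_cases k2 : Touch G (F 2) E₂ ∧ Touch G (F 3) E₁
  · exact four_a S hE' hd.symm c2 c1 w2 w1 k2.1 k2.2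
  by_cases k3 : Touch G (F 2) E₁
  · -- both touch `E₁` only
    have k4 : ¬ Touch G (F 3) E₂ := fun h => k1 ⟨k3, h⟩
    have k5 : Touch G (F 3) E₁ := hV.resolve_right k4
    have k6 : ¬ Touch G (F 2) E₂ := fun h => k2 ⟨h, k5⟩
    obtain ⟨j, hj, hj4, hj'⟩ := h2
    have : j = 5 ∨ j = 6 := by
      have h2 : j ≠ 2 := by rintro rfl; exact k6 (touch_symm hj')
      have h3 : j ≠ 3 := by rintro rfl; exact k4 (touch_symm hj')
      clear hj'
      revert j; decide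
    rcases this with rfl | rfl
    · exact four_b S hE' hd.symm c2 c1 w2 w1 k3 k5 5 6 (Or.inl ⟨rfl, rfl⟩) hj'
    · exact four_b S hE' hd.symm c2 c1 w2 w1 k3 k5 6 5 (Or.inr ⟨rfl, rfl⟩) hj'
  · have k4 : Touch G (F 2) E₂ := hU.resolve_left k3
    have k5 : ¬ Touch G (F 3) E₁ := fun h => k2 ⟨k4, h⟩
    have k6 : Touch G (F 3) E₂ := hV.resolve_left k5
    obtain ⟨j, hj, hj4, hj'⟩ := h1
    have : j = 5 ∨ j = 6 := by
      have h2 : j ≠ 2 := by rintro rfl; exact k3 (touch_symm hj')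
      have h3 : j ≠ 3 := by rintro rfl; exact k5 (touch_symm hj')
      clear hj'
      revert j; decide
    rcases this with rfl | rfl
    · exact four_b S hE hd c1 c2 w1 w2 k4 k6 5 6 (Or.inl ⟨rfl, rfl⟩) hj'
    · exact four_b S hE hd c1 c2 w1 w2 k4 k6 6 5 (Or.inr ⟨rfl, rfl⟩) hj'

/-- the case `e = 2`, `A`, `B`, `C` touch `E₂` -/
theorem two_a (hP : PairStmt) {F : Fin 7 → Set V} {E₁ E₂ : Set V} (S : Seven G F)
    (hE : E₁ ∪ E₂ = F 2) (hd : Disjoint E₁ E₂) (c1 : (G.induce E₁).Connected)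
    (c2 : (G.induce E₂).Connected) (w1 : Touch G (F 0) E₁) (w2 : Touch G (F 0) E₂)
    (hx : Touch G (F 1) (F 4)) (h : ∀ i : Fin 7, 4 ≤ i → Touch G (F i) E₂)
    (j : Fin 7) (hj : 2 ≤ j) (hj2 : j ≠ 2) (hj' : Touch G E₁ (F j)) : NewM G F := by
  classical
  have e1 : E₁ ⊆ F 2 := hE ▸ Set.subset_union_left
  have e2 : E₂ ⊆ F 2 := hE ▸ Set.subset_union_right
  have d := S.disj
  let F' : Fin 7 → Set V := fun i => if i = 2 then E₂ else if i = j then F j ∪ E₁ else F i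
  have f2 : F' 2 = E₂ := if_pos rfl
  have fj : F' j = F j ∪ E₁ := by simp [F', hj2]
  have fo : ∀ i, i ≠ 2 → i ≠ j → F' i = F i := fun i h2 hj => by simp [F', h2, hj]
  have fs : ∀ i, i ≠ 2 → F i ⊆ F' i := by
    intro i hi
    by_cases h : i = j
    · subst h; rw [fj]; exact Set.subset_union_left
    · rw [fo i hi h]
  have j0 : (0 : Fin 7) ≠ j := by rintro rfl; exact absurd hj (by decide)
  have j1 : (1 : Fin 7) ≠ j := by rintro rfl; exact absurd hj (by decide)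
  have f0 : F' 0 = F 0 := fo 0 (by decide) j0
  have f1 : F' 1 = F 1 := fo 1 (by decide) j1
  have hS : Seven G F' := by
    refine ⟨fun i => ?_, fun a b hab => ?_, ?_, ?_, ?_, ?_, fun a b ha hb => ?_⟩
    · by_cases h2 : i = 2
      · subst h2; rw [f2]; exact c2
      by_cases h : i = j
      · subst h; rw [fj]; exact conn_union (S.conn _) c1 (touch_symm hj')
      · rw [fo i h2 h]; exact S.conn i
    · -- disjoint
      have key : ∀ a b, a ≠ b → b ≠ 2 → Disjoint (F' a) (F' b) := by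
        intro a b hab hb
        by_cases ha2 : a = 2
        · subst ha2
          rw [f2]
          by_cases h : b = j
          · subst h; rw [fj, Set.disjoint_union_right]
            exact ⟨(d 2 b (Ne.symm hb)).mono_left e2, hd.symm⟩
          · rw [fo b hb h]; exact (d 2 b (Ne.symm hb)).mono_left e2
        · by_cases h : b = j
          · have ha : a ≠ j := fun h' => hab (h'.trans h.symm)
            subst h; rw [fj, fo a ha2 ha, Set.disjoint_union_right]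
            exact ⟨d a b hab, (d a 2 ha2).mono_right e1⟩
          · rw [fo b hb h]
            by_cases h' : a = j
            · subst h'; rw [fj, Set.disjoint_union_left]
              exact ⟨d a b hab, (d 2 b (Ne.symm hb)).mono_left e1⟩
            · rw [fo a ha2 h']; exact d a b hab
      by_cases hb : b = 2
      · subst hb; exact (key 2 a hab.symm hab).symm
      · exact key a b hab hb
    · rw [f0, f1]; exact S.wx
    · rw [f1]; exact touch_mono S.xb (le_refl _) (fs 5 (by decide))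
    · rw [f1]; exact touch_mono S.xc (le_refl _) (fs 6 (by decide))
    · rw [f1]; exact Or.inl (touch_mono hx (le_refl _) (fs 4 (by decide)))
    · have hb2 : b ≠ 2 := by rcases hb with rfl | rfl | rfl <;> decide
      have hb4 : 4 ≤ b := by rcases hb with rfl | rfl | rfl <;> decide
      by_cases h2 : a = 2
      · subst h2; rw [f2]
        exact touch_mono (touch_symm (h b hb4)) (le_refl _) (fs b hb2)
      · exact touch_mono (S.uv a b ha hb) (fs a h2) (fs b hb2)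
  obtain ⟨ν, b, hν, hb, c, c', hcc, hcb, hcb', ⟨i, hi, hi'⟩, i', hi4, hi5⟩ :=
    hP V G F' hS ⟨2, j, le_refl _, hj, Ne.symm hj2, by rw [f0, f2]; exact w2, by
      rw [f0, fj]; exact touch_mono w1 (le_refl _) Set.subset_union_right⟩
  have i2 : ∀ i : Fin 7, 4 ≤ i → i ≠ 2 := by decide
  exact ⟨ν, b, hν, hb.trans f0, c, c', hcc, hcb, hcb', ⟨i, hi, (fs i (i2 i hi)).trans hi'⟩, i', hi4,
    (fs i' (i2 i' hi4)).trans hi5⟩

/-- the case `e = 2`: `F p`, `F q` touch `E₁`, `F s` touches `E₂` -/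
theorem two_b {F : Fin 7 → Set V} {E₁ E₂ : Set V} (S : Seven G F)
    (hE : E₁ ∪ E₂ = F 2) (hd : Disjoint E₁ E₂) (c1 : (G.induce E₁).Connected)
    (c2 : (G.induce E₂).Connected) (w1 : Touch G (F 0) E₁) (w2 : Touch G (F 0) E₂)
    (hx : Touch G (F 1) (F 4)) (p q s : Fin 7) (hp : 4 ≤ p) (hq : 4 ≤ q) (hs : 4 ≤ s)
    (hpq : p ≠ q) (hps : p ≠ s) (hqs : q ≠ s)
    (h1 : Touch G (F p) E₁) (h2 : Touch G (F q) E₁) (h3 : Touch G (F s) E₂) : NewM G F := by
  have e1 : E₁ ⊆ F 2 := hE ▸ Set.subset_union_left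
  have e2 : E₂ ⊆ F 2 := hE ▸ Set.subset_union_right
  have d := S.disj
  have d1 : ∀ j, j ≠ 2 → Disjoint (F j) E₁ := fun j hj => (d j 2 hj).mono_right e1
  have d2 : ∀ j, j ≠ 2 → Disjoint (F j) E₂ := fun j hj => (d j 2 hj).mono_right e2
  have d1' : ∀ j, j ≠ 2 → Disjoint E₁ (F j) := fun j hj => (d1 j hj).symm
  have d2' : ∀ j, j ≠ 2 → Disjoint E₂ (F j) := fun j hj => (d2 j hj).symm
  have i4 : ∀ i : Fin 7, 4 ≤ i → i = 4 ∨ i = 5 ∨ i = 6 := by decide
  have hxi : ∀ i : Fin 7, 4 ≤ i → Touch G (F i) (F 1) := by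
    intro i hi
    rcases i4 i hi with rfl | rfl | rfl
    · exact touch_symm hx
    · exact touch_symm S.xb
    · exact touch_symm S.xc
  have hv : ∀ i : Fin 7, 4 ≤ i → Touch G (F i) (F 3) := fun i hi =>
    touch_symm (S.uv 3 i (by simp) (i4 i hi))
  have n0 : ∀ i : Fin 7, 4 ≤ i → 0 ≠ i := by decide
  have n1 : ∀ i : Fin 7, 4 ≤ i → 1 ≠ i := by decide
  have n2 : ∀ i : Fin 7, 4 ≤ i → i ≠ 2 := by decide
  have n3 : ∀ i : Fin 7, 4 ≤ i → i ≠ 3 := by decide
  have n1' : ∀ i : Fin 7, 4 ≤ i → i ≠ 1 := by decide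
  refine ⟨_, Sum.inl 0, six (a1 := F 0) (a2 := F p) (a3 := F q) (b1 := F 1) (b2 := E₁)
    (b3 := (F s ∪ E₂) ∪ F 3) (S.conn 0) (S.conn p) (S.conn q) (S.conn 1) c1
    (conn_union (conn_union (S.conn s) c2 h3) (S.conn 3)
      (touch_mono (hv s hs) Set.subset_union_left (le_refl _))) ?_ S.wx w1
    (touch_mono w2 (le_refl _) (Set.subset_union_right.trans Set.subset_union_left))
    (hxi p hp) h1 (touch_mono (hv p hp) (le_refl _) Set.subset_union_right)
    (hxi q hq) h2 (touch_mono (hv q hq) (le_refl _) Set.subset_union_right),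
    rfl, Sum.inl 1, Sum.inl 2, by simp, by simp, by simp, ⟨p, hp, le_refl _⟩, ⟨q, hq, le_refl _⟩⟩
  simp [d, d1, d2, d1', d2', hd, hpq, hps, hqs, n0 p hp, n0 q hq, n0 s hs, n1 s hs, n2 p hp,
    n2 q hq, n3 p hp, n3 q hq, n2 s hs, n1' p hp, n1' q hq]

theorem two (hP : PairStmt) {F : Fin 7 → Set V} {E₁ E₂ : Set V} (S : Seven G F)
    (hE : E₁ ∪ E₂ = F 2) (hd : Disjoint E₁ E₂) (c1 : (G.induce E₁).Connected)
    (c2 : (G.induce E₂).Connected) (w1 : Touch G (F 0) E₁) (w2 : Touch G (F 0) E₂)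
    (hx : Touch G (F 1) (F 4)) (h1 : ∃ j : Fin 7, 2 ≤ j ∧ j ≠ 2 ∧ Touch G E₁ (F j))
    (h2 : ∃ j : Fin 7, 2 ≤ j ∧ j ≠ 2 ∧ Touch G E₂ (F j)) : NewM G F := by
  have hE' : E₂ ∪ E₁ = F 2 := by rw [Set.union_comm]; exact hE
  have i4 : ∀ i : Fin 7, 4 ≤ i → i = 4 ∨ i = 5 ∨ i = 6 := by decide
  have hor : ∀ i : Fin 7, 4 ≤ i → Touch G (F i) E₁ ∨ Touch G (F i) E₂ := fun i hi =>
    touch_union (hE.symm ▸ touch_symm (S.uv 2 i (by simp) (i4 i hi)))
  by_cases k2 : ∀ i : Fin 7, 4 ≤ i → Touch G (F i) E₂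
  · obtain ⟨j, hj, hj2, hj'⟩ := h1
    exact two_a hP S hE hd c1 c2 w1 w2 hx k2 j hj hj2 hj'
  by_cases k1 : ∀ i : Fin 7, 4 ≤ i → Touch G (F i) E₁
  · obtain ⟨j, hj, hj2, hj'⟩ := h2
    exact two_a hP S hE' hd.symm c2 c1 w2 w1 hx k1 j hj hj2 hj'
  push Not at k1 k2
  obtain ⟨p, hp, hp2⟩ := k2
  obtain ⟨q, hq, hq1⟩ := k1
  have hp1 : Touch G (F p) E₁ := (hor p hp).resolve_right hp2
  have hq2 : Touch G (F q) E₂ := (hor q hq).resolve_left hq1
  have hpq : p ≠ q := by rintro rfl; exact hq1 hp1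
  obtain ⟨s, hs, hps, hqs⟩ : ∃ s : Fin 7, 4 ≤ s ∧ p ≠ s ∧ q ≠ s := by
    clear hp1 hq2 hq1 hp2
    revert p q; decide
  rcases hor s hs with h | h
  · exact two_b S hE hd c1 c2 w1 w2 hx p s q hp hs hq hps hpq hqs.symm hp1 h hq2
  · exact two_b S hE' hd.symm c2 c1 w2 w1 hx q s p hq hs hp hqs hpq.symm hps.symm hq2 h hp1

/-- exchange `U` and `V` -/
theorem seven_swap {F : Fin 7 → Set V} (S : Seven G F) :
    Seven G (F ∘ Equiv.swap (2 : Fin 7) 3) := by
  have s0 : Equiv.swap (2 : Fin 7) 3 0 = 0 := by decide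
  have s1 : Equiv.swap (2 : Fin 7) 3 1 = 1 := by decide
  have s4 : Equiv.swap (2 : Fin 7) 3 4 = 4 := by decide
  have s5 : Equiv.swap (2 : Fin 7) 3 5 = 5 := by decide
  have s6 : Equiv.swap (2 : Fin 7) 3 6 = 6 := by decide
  refine ⟨fun i => S.conn _, fun i j hij => S.disj _ _ fun h => hij
    ((Equiv.swap (2 : Fin 7) 3).injective h), ?_, ?_, ?_, ?_, fun i j hi hj => ?_⟩
  · simpa [s0, s1] using S.wx
  · simpa [s1, s5] using S.xb
  · simpa [s1, s6] using S.xc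
  · simpa [s0, s1, s4] using S.xa
  · have hj' : Equiv.swap (2 : Fin 7) 3 j = j := by rcases hj with rfl | rfl | rfl <;> decide
    simp only [Function.comp_apply, hj']
    refine S.uv _ _ ?_ hj
    rcases hi with rfl | rfl <;> decide

theorem newM_swap {F : Fin 7 → Set V} (h : NewM G (F ∘ Equiv.swap (2 : Fin 7) 3)) :
    NewM G F := by
  obtain ⟨ν, b, hν, hb, c, c', hcc, hcb, hcb', ⟨i, hi, hi'⟩, i', hi4, hi5⟩ := h
  have h4 : ∀ i : Fin 7, 4 ≤ i → Equiv.swap (2 : Fin 7) 3 i = i := by decide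
  have s0 : Equiv.swap (2 : Fin 7) 3 0 = 0 := by decide
  refine ⟨ν, b, hν, hb.trans (by simp [s0]), c, c', hcc, hcb, hcb', ⟨i, hi, ?_⟩, i', hi4, ?_⟩
  · simpa [h4 i hi] using hi'
  · simpa [h4 i' hi4] using hi5

theorem split_of_pair (hP : PairStmt) : Vale.Agent.P235.H830.SplitStmt := by
  intro V G F e E₁ E₂ S he hno hE hd c1 c2 w1 w2 h1 h2
  rcases he with rfl | rfl | rfl
  · have hx : Touch G (F 1) (F 4) := S.xa.resolve_right (hno 4 (by decide) (by decide))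
    exact two hP S hE hd c1 c2 w1 w2 hx h1 h2
  · have hx : Touch G (F 1) (F 4) := S.xa.resolve_right (hno 4 (by decide) (by decide))
    have s0 : Equiv.swap (2 : Fin 7) 3 0 = 0 := by decide
    have s1 : Equiv.swap (2 : Fin 7) 3 1 = 1 := by decide
    have s2 : Equiv.swap (2 : Fin 7) 3 2 = 3 := by decide
    have s4 : Equiv.swap (2 : Fin 7) 3 4 = 4 := by decide
    have hj : ∀ E : Set V, (∃ j : Fin 7, 2 ≤ j ∧ j ≠ 3 ∧ Touch G E (F j)) →
        ∃ j : Fin 7, 2 ≤ j ∧ j ≠ 2 ∧ Touch G E ((F ∘ Equiv.swap (2 : Fin 7) 3) j) := by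
      rintro E ⟨j, hj, hj3, hj'⟩
      refine ⟨Equiv.swap (2 : Fin 7) 3 j, ?_, ?_, by simpa using hj'⟩
      · clear hj'; revert j; decide
      · clear hj'; revert j; decide
    refine newM_swap (two hP (seven_swap S) (by simpa [s2] using hE) hd c1 c2
      (by simpa [s0] using w1) (by simpa [s0] using w2) (by simpa [s1, s4] using hx)
      (hj _ h1) (hj _ h2))
  · exact four S hE hd c1 c2 w1 w2 h1 h2

end sets

end Vale.Agent.P235.H236.Spl
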